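import Mathlib

/-!
# P045: averages over Bernoulli subsets of a finite set

`wsum t U g` is the expectation of `g R`, where `R` keeps each element of `U` independently with
probability `t`. Only the probability that a fixed set is kept is needed.
-/

namespace Vale.P045.Baer.Low

open Finset

variable {α : Type*} [DecidableEq α]

/-- Expectation over Bernoulli subsets of `U`. -/
def wsum (t : ℝ) (U : Finset α) (g : Finset α → ℝ) : ℝ :=
  ∑ R ∈ U.powerset, t ^ R.card * (1 - t) ^ (U \ R).card * g R

variable {t : ℝ} {U : Finset α}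

theorem wsum_mono {g g' : Finset α → ℝ} (h0 : 0 ≤ t) (h1 : t ≤ 1)
    (h : ∀ R ⊆ U, g R ≤ g' R) : wsum t U g ≤ wsum t U g' := by
  refine sum_le_sum fun R hR => mul_le_mul_of_nonneg_left (h R (mem_powerset.1 hR)) ?_
  have : (0 : ℝ) ≤ 1 - t := by linarith
  positivity

theorem wsum_congr {g g' : Finset α → ℝ} (h : ∀ R ⊆ U, g R = g' R) :
    wsum t U g = wsum t U g' :=
  sum_congr rfl fun R hR => by rw [h R (mem_powerset.1 hR)]

theorem wsum_add (g g' : Finset α → ℝ) :
    wsum t U (fun R => g R + g' R) = wsum t U g + wsum t U g' := by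
  simp only [wsum, mul_add, sum_add_distrib]

theorem wsum_sub (g g' : Finset α → ℝ) :
    wsum t U (fun R => g R - g' R) = wsum t U g - wsum t U g' := by
  simp only [wsum, mul_sub, sum_sub_distrib]

theorem wsum_mul (c : ℝ) (g : Finset α → ℝ) :
    wsum t U (fun R => c * g R) = c * wsum t U g := by
  simp only [wsum, mul_sum]
  exact sum_congr rfl fun R _ => by ring

theorem wsum_sum {ι : Type*} (s : Finset ι) (g : ι → Finset α → ℝ) :
    wsum t U (fun R => ∑ i ∈ s, g i R) = ∑ i ∈ s, wsum t U (g i) := by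
  simp only [wsum, mul_sum]
  exact sum_comm

/-- A fixed set is kept with probability `t ^ card`. -/
theorem wsum_subset {P : Finset α} (hP : P ⊆ U) :
    wsum t U (fun R => if P ⊆ R then 1 else 0) = t ^ P.card := by
  have h := (prod_add (fun _ : α => t) (fun i => if i ∈ P then 0 else 1 - t) U).symm
  have e : ∀ i ∈ U, t + (if i ∈ P then 0 else 1 - t) = if i ∈ P then t else 1 := by
    intro i _; split_ifs <;> ring
  rw [prod_congr rfl e, prod_ite_mem, inter_eq_right.2 hP, prod_const] at h
  rw [← h, wsum]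
  refine sum_congr rfl fun R _ => ?_
  rw [prod_const]
  split_ifs with hPR
  · rw [mul_one]
    congr 1
    rw [prod_congr rfl fun i hi => if_neg fun h' => (mem_sdiff.1 hi).2 (hPR h'), prod_const]
  · obtain ⟨i, hiP, hiR⟩ := not_subset.1 hPR
    rw [prod_eq_zero (f := fun i => if i ∈ P then (0 : ℝ) else 1 - t)
      (mem_sdiff.2 ⟨hP hiP, hiR⟩) (if_pos hiP)]
    ring

theorem indicator_mul (P Q R : Finset α) :
    ((if P ⊆ R then (1 : ℝ) else 0) * if Q ⊆ R then 1 else 0) = if P ∪ Q ⊆ R then 1 else 0 := by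
  simp only [union_subset_iff]
  split_ifs <;> simp_all

theorem choose_inter (j : ℕ) (S R : Finset α) :
    ((S ∩ R).card.choose j : ℝ) = ∑ P ∈ S.powersetCard j, if P ⊆ R then 1 else 0 := by
  rw [sum_boole, ← card_powersetCard]
  congr 2
  ext P
  simp only [mem_filter, mem_powersetCard, subset_inter_iff]
  tauto

/-- Expected number of kept `j`-subsets. -/
theorem wsum_choose (j : ℕ) {S : Finset α} (hS : S ⊆ U) :
    wsum t U (fun R => ((S ∩ R).card.choose j : ℝ)) = (S.card.choose j : ℝ) * t ^ j := by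
  rw [wsum_congr fun R _ => choose_inter j S R, wsum_sum,
    sum_congr rfl fun P hP => ?_, sum_const, card_powersetCard, nsmul_eq_mul]
  rw [wsum_subset ((mem_powersetCard.1 hP).1.trans hS), (mem_powersetCard.1 hP).2]

/-- Expected number of kept pairs of `j`-subsets of two disjoint sets. -/
theorem wsum_choose_mul (j : ℕ) {S S' : Finset α} (hS : S ⊆ U) (hS' : S' ⊆ U)
    (hd : Disjoint S S') :
    wsum t U (fun R => ((S ∩ R).card.choose j : ℝ) * ((S' ∩ R).card.choose j : ℝ)) =
      (S.card.choose j : ℝ) * (S'.card.choose j : ℝ) * t ^ (2 * j) := by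
  have e : ∀ R ⊆ U, ((S ∩ R).card.choose j : ℝ) * ((S' ∩ R).card.choose j : ℝ) =
      ∑ x ∈ S.powersetCard j ×ˢ S'.powersetCard j, if x.1 ∪ x.2 ⊆ R then 1 else 0 := by
    intro R _
    rw [choose_inter, choose_inter, sum_mul_sum, sum_product]
    exact sum_congr rfl fun P _ => sum_congr rfl fun Q _ => indicator_mul P Q R
  rw [wsum_congr e, wsum_sum, sum_congr rfl fun x hx => ?_, sum_const, card_product,
    card_powersetCard, card_powersetCard, nsmul_eq_mul, Nat.cast_mul]
  obtain ⟨⟨h1, c1⟩, ⟨h2, c2⟩⟩ :=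
    And.intro (mem_powersetCard.1 (mem_product.1 hx).1) (mem_powersetCard.1 (mem_product.1 hx).2)
  rw [wsum_subset (union_subset (h1.trans hS) (h2.trans hS')),
    card_union_of_disjoint (hd.mono h1 h2), c1, c2, two_mul]

/-- Expected size of the kept set. -/
theorem wsum_card : wsum t U (fun R => (R.card : ℝ)) = (U.card : ℝ) * t := by
  have := wsum_choose (t := t) 1 (Subset.refl U)
  simp only [Nat.choose_one_right, pow_one] at this
  rw [← this]
  exact wsum_congr fun R hR => by rw [inter_eq_right.2 hR]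

/-- `choose 2 - 3 * choose 3` is at most the indicator of `2`. -/
theorem bonferroni (k : ℕ) :
    (k.choose 2 : ℝ) - 3 * (k.choose 3 : ℝ) ≤ if k = 2 then 1 else 0 := by
  rcases lt_trichotomy k 2 with h | h | h
  · interval_cases k <;> simp
  · subst h; simp
  · rw [if_neg h.ne']
    have h1 := Nat.choose_succ_right_eq k 2
    have h2 : (k.choose 2 : ℝ) ≤ k.choose 3 * 3 := by
      have : k.choose 2 * 1 ≤ k.choose 2 * (k - 2) := Nat.mul_le_mul_left _ (by omega)
      rw [← h1, mul_one] at this
      exact_mod_cast this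
    linarith

theorem choose_three_le (f : ℕ) : 3 * (f.choose 3 : ℝ) ≤ (f : ℝ) * (f.choose 2 : ℝ) := by
  have h1 := Nat.choose_succ_right_eq f 2
  have h2 : f.choose 2 * (f - 2) ≤ f.choose 2 * f := Nat.mul_le_mul_left _ (Nat.sub_le _ _)
  rw [← h1] at h2
  have h3 : ((f.choose 3 * 3 : ℕ) : ℝ) ≤ ((f.choose 2 * f : ℕ) : ℝ) := by exact_mod_cast h2
  push_cast at h3
  linarith

end Vale.P045.Baer.Low
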